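import Vale.Agent.P050.H687.Spec

set_option autoImplicit false

/-!
# P050, closure under substitution: the density of the substitution
-/

set_option linter.unusedSectionVars false
set_option linter.unusedVariables false

namespace Vale.Agent.P050.H118

open Finset Vale.Agent.P050.Lev Vale.Agent.P050.Tmpl Vale.Agent.P050.H177 Vale.Agent.P050.H687

variable {VG V U : Type} [Fintype VG] [DecidableEq VG] [Fintype V] [DecidableEq V] [Fintype U]

lemma mem_pt (τ : V → Bool) (K : Finset V) (b : Bool) (v : V) :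
    v ∈ pt τ K b ↔ v ∉ K ∧ τ v = b := by
  simp [pt]

/-- The position of a vertex of the substitution. -/
def jj (t : VG → Bool) (τ : V → Bool) (K : Finset V) : RV t τ K → V ⊕ (VG × V)
  | Sum.inl u => Sum.inl u.1
  | Sum.inr p => Sum.inr p.1

lemma jj_inj (t : VG → Bool) (τ : V → Bool) (K : Finset V) : Function.Injective (jj t τ K) := by
  rintro (u | p) (v | q) h
  · simp only [jj, Sum.inl.injEq] at h
    rw [Subtype.ext h]
  · simp [jj] at h
  · simp [jj] at h
  · simp only [jj, Sum.inr.injEq] at h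
    rw [Subtype.ext h]

lemma not_range_inl {t : VG → Bool} {τ : V → Bool} {K : Finset V} {u : V}
    (h : (Sum.inl u : V ⊕ (VG × V)) ∉ Set.range (jj t τ K)) : u ∉ K := fun hu =>
  h ⟨Sum.inl ⟨u, hu⟩, rfl⟩

lemma not_range_inr {t : VG → Bool} {τ : V → Bool} {K : Finset V} {p : VG × V}
    (h : (Sum.inr p : V ⊕ (VG × V)) ∉ Set.range (jj t τ K)) : p.2 ∉ pt τ K (t p.1) := fun hp => by
  rw [mem_pt] at hp
  exact h ⟨Sum.inr ⟨p, hp.1, hp.2.symm⟩, rfl⟩

open Classical in
/-- The factor of a pair of positions. -/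
noncomputable def eI (G : SimpleGraph VG) (t : VG → Bool) (H : SimpleGraph V) (s : V → Bool)
    (τ : V → Bool) (K : Finset V) (W : U → U → ℝ) (r : V → U) (Z : VG → V → U) :
    V ⊕ (VG × V) → V ⊕ (VG × V) → ℝ
  | Sum.inl u, Sum.inl v => if u ∈ K ∧ v ∈ K then ed H s W u v (r u) (r v) else 1
  | Sum.inl u, Sum.inr q =>
    if u ∈ K ∧ q.2 ∈ pt τ K (t q.1) then ed H s W u q.2 (r u) (Z q.1 q.2) else 1
  | Sum.inr p, Sum.inl v =>
    if p.2 ∈ pt τ K (t p.1) ∧ v ∈ K then ed H s W p.2 v (Z p.1 p.2) (r v) else 1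
  | Sum.inr p, Sum.inr q =>
    if p.1 = q.1 ∨ G.Adj p.1 q.1 then
      (if p.2 ∈ pt τ K (t p.1) ∧ q.2 ∈ pt τ K (t q.1) then
        ed H s W p.2 q.2 (Z p.1 p.2) (Z q.1 q.2) else 1) else 1

/-- The configuration. -/
def om (r : V → U) (Z : VG → V → U) : V ⊕ (VG × V) → U := Sum.elim r fun q => Z q.1 q.2

open Classical in
lemma prod_side {A : Type} [Fintype A] (F : SimpleGraph A) (sd : A → Bool) (g : A → A → ℝ) :
    ∏ e ∈ sideEdges F sd, g e.1 e.2 =
      ∏ a, ∏ b, if F.Adj a b ∧ sd a = false ∧ sd b = true then g a b else 1 := by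
  rw [sideEdges, Finset.prod_filter, Fintype.prod_prod_type]

section fix

variable (G : SimpleGraph VG) (t : VG → Bool) (H : SimpleGraph V) (s : V → Bool)
  (τ : V → Bool) (K : Finset V) (W : U → U → ℝ) (r : V → U) (Z : VG → V → U)

open Classical in
lemma eI_jj (a b : RV t τ K) :
    (if (relSub G t H τ K).Adj a b ∧ subSide s t τ K a = false ∧ subSide s t τ K b = true
      then W (om r Z (jj t τ K a)) (om r Z (jj t τ K b)) else 1) =
      eI G t H s τ K W r Z (jj t τ K a) (jj t τ K b) := by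
  rcases a with u | p <;> rcases b with v | q
  · show _ = if u.1 ∈ K ∧ v.1 ∈ K then ed H s W u.1 v.1 (r u.1) (r v.1) else 1
    refine Eq.trans ?_ (if_pos ⟨u.2, v.2⟩).symm
    rfl
  · show _ = if u.1 ∈ K ∧ q.1.2 ∈ pt τ K (t q.1.1) then
      ed H s W u.1 q.1.2 (r u.1) (Z q.1.1 q.1.2) else 1
    refine Eq.trans ?_ (if_pos ⟨u.2, (mem_pt _ _ _ _).2 ⟨q.2.1, q.2.2.symm⟩⟩).symm
    rfl
  · show _ = if p.1.2 ∈ pt τ K (t p.1.1) ∧ v.1 ∈ K then
      ed H s W p.1.2 v.1 (Z p.1.1 p.1.2) (r v.1) else 1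
    refine Eq.trans ?_ (if_pos ⟨(mem_pt _ _ _ _).2 ⟨p.2.1, p.2.2.symm⟩, v.2⟩).symm
    rfl
  · by_cases h : p.1.1 = q.1.1 ∨ G.Adj p.1.1 q.1.1
    · refine Eq.trans ?_ (if_pos h).symm
      refine Eq.trans ?_ (if_pos ⟨(mem_pt _ _ _ _).2 ⟨p.2.1, p.2.2.symm⟩,
        (mem_pt _ _ _ _).2 ⟨q.2.1, q.2.2.symm⟩⟩).symm
      exact if_congr ⟨fun x => ⟨x.1.2, x.2⟩, fun x => ⟨⟨h, x.1⟩, x.2⟩⟩ rfl rfl
    · exact Eq.trans (if_neg fun h' => h h'.1.1) (if_neg h).symm

lemma eI_left {i : V ⊕ (VG × V)} (hi : i ∉ Set.range (jj t τ K)) (i' : V ⊕ (VG × V)) :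
    eI G t H s τ K W r Z i i' = 1 := by
  rcases i with u | p <;> rcases i' with v | q
  · rw [eI, if_neg]
    exact fun h => not_range_inl hi h.1
  · rw [eI, if_neg]
    exact fun h => not_range_inl hi h.1
  · rw [eI, if_neg]
    exact fun h => not_range_inr hi h.1
  · rw [eI]
    split_ifs with h1 h2
    · exact absurd h2.1 (not_range_inr hi)
    · rfl
    · rfl

lemma eI_right {i' : V ⊕ (VG × V)} (hi : i' ∉ Set.range (jj t τ K)) (i : V ⊕ (VG × V)) :
    eI G t H s τ K W r Z i i' = 1 := by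
  rcases i with u | p <;> rcases i' with v | q
  · rw [eI, if_neg]
    exact fun h => not_range_inl hi h.2
  · rw [eI, if_neg]
    exact fun h => not_range_inr hi h.2
  · rw [eI, if_neg]
    exact fun h => not_range_inl hi h.2
  · rw [eI]
    split_ifs with h1 h2
    · exact absurd h2.2 (not_range_inr hi)
    · rfl
    · rfl

lemma prod_sub :
    ∏ e ∈ sideEdges (relSub G t H τ K) (subSide s t τ K),
      W (om r Z (jj t τ K e.1)) (om r Z (jj t τ K e.2)) =
      ∏ i, ∏ i', eI G t H s τ K W r Z i i' := by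
  classical
  rw [prod_side (relSub G t H τ K) (subSide s t τ K)
    (fun a b => W (om r Z (jj t τ K a)) (om r Z (jj t τ K b)))]
  refine Fintype.prod_of_injective (jj t τ K) (jj_inj t τ K) _ _ (fun i hi => ?_) (fun a => ?_)
  · exact Finset.prod_eq_one fun i' _ => eI_left G t H s τ K W r Z hi i'
  · refine Fintype.prod_of_injective (jj t τ K) (jj_inj t τ K) _ _ (fun i hi => ?_) (fun b => ?_)
    · exact eI_right G t H s τ K W r Z hi _
    · exact eI_jj G t H s τ K W r Z a b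

/-- The pairs between two copies. -/
noncomputable def DD (p q : VG) : ℝ :=
  ∏ u, ∏ v, if u ∈ pt τ K (t p) ∧ v ∈ pt τ K (t q) then ed H s W u v (Z p u) (Z q v) else 1

lemma bw_eq (p : VG) : bw H s W K (pt τ K (t p)) r (Z p) =
    (∏ u, ∏ v, if u ∈ K ∧ v ∈ pt τ K (t p) then ed H s W u v (r u) (Z p v) else 1) *
      (∏ u, ∏ v, if u ∈ pt τ K (t p) ∧ v ∈ K then ed H s W u v (Z p u) (r v) else 1) *
      DD t H s τ K W Z p p := by
  rw [bw, DD]
  simp only [Finset.prod_mul_distrib]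

lemma dw_eq {p q : VG} (hp : t p = false) (hq : t q = true) :
    dw H s W (pt τ K false) (pt τ K true) (Z p) (Z q) =
      DD t H s τ K W Z p q * DD t H s τ K W Z q p := by
  rw [dw, DD, DD, hp, hq]
  simp only [Finset.prod_mul_distrib]

open Classical in
lemma prod_DD (hG : ∀ p q, G.Adj p q → t p ≠ t q) (D : VG → VG → ℝ) :
    (∏ p, ∏ q, if p = q ∨ G.Adj p q then D p q else 1) =
      (∏ p, D p p) * ∏ e ∈ sideEdges G t, (D e.1 e.2 * D e.2 e.1) := by
  have h1 : ∀ p q, (if p = q ∨ G.Adj p q then D p q else 1) =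
      (if p = q then D p q else 1) *
        ((if G.Adj p q ∧ t p = false ∧ t q = true then D p q else 1) *
          (if G.Adj p q ∧ t p = true ∧ t q = false then D p q else 1)) := by
    intro p q
    by_cases hpq : p = q
    · subst hpq
      rw [if_pos (Or.inl rfl), if_pos rfl, if_neg (fun h => G.loopless.irrefl _ h.1),
        if_neg (fun h => G.loopless.irrefl _ h.1), one_mul, mul_one]
    · by_cases ha : G.Adj p q
      · rw [if_pos (Or.inr ha), if_neg hpq, one_mul]
        have hne := hG p q ha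
        cases hp : t p <;> cases hq : t q
        · exact absurd (hp.trans hq.symm) hne
        · simp [ha]
        · simp [ha]
        · exact absurd (hp.trans hq.symm) hne
      · rw [if_neg (fun h => h.elim hpq ha), if_neg hpq, if_neg (fun h => ha h.1),
          if_neg (fun h => ha h.1), one_mul, mul_one]
  have h2 : ∏ p, ∏ q, (if G.Adj p q ∧ t p = true ∧ t q = false then D p q else 1) =
      ∏ p, ∏ q, (if G.Adj p q ∧ t p = false ∧ t q = true then D q p else 1) := by
    rw [Finset.prod_comm]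
    refine Finset.prod_congr rfl fun p _ => Finset.prod_congr rfl fun q _ => ?_
    refine if_congr ⟨fun h => ⟨h.1.symm, h.2.2, h.2.1⟩, fun h => ⟨h.1.symm, h.2.2, h.2.1⟩⟩ rfl rfl
  rw [prod_side G t (fun p q => D p q * D q p)]
  simp only [h1, Finset.prod_mul_distrib]
  rw [h2]
  congr 1
  · refine Finset.prod_congr rfl fun p _ => ?_
    rw [Finset.prod_ite_eq]
    simp
  · rw [← Finset.prod_mul_distrib]
    refine Finset.prod_congr rfl fun p _ => ?_
    rw [← Finset.prod_mul_distrib]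
    refine Finset.prod_congr rfl fun q _ => ?_
    by_cases h : G.Adj p q ∧ t p = false ∧ t q = true
    · rw [if_pos h, if_pos h, if_pos h]
    · rw [if_neg h, if_neg h, if_neg h, one_mul]

lemma prod_eI (hG : ∀ p q, G.Adj p q → t p ≠ t q) :
    ∏ i, ∏ i', eI G t H s τ K W r Z i i' =
      aw H s W K r * ((∏ p, bw H s W K (pt τ K (t p)) r (Z p)) *
        ∏ e ∈ sideEdges G t, dw H s W (pt τ K false) (pt τ K true) (Z e.1) (Z e.2)) := by
  classical
  have hd : ∏ e ∈ sideEdges G t, dw H s W (pt τ K false) (pt τ K true) (Z e.1) (Z e.2) =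
      ∏ e ∈ sideEdges G t, (DD t H s τ K W Z e.1 e.2 * DD t H s τ K W Z e.2 e.1) := by
    refine Finset.prod_congr rfl fun e he => ?_
    rw [sideEdges, Finset.mem_filter] at he
    exact dw_eq t H s τ K W Z he.2.2.1 he.2.2.2
  have hb : ∏ p, bw H s W K (pt τ K (t p)) r (Z p) =
      (∏ p, ∏ u, ∏ v, if u ∈ K ∧ v ∈ pt τ K (t p) then ed H s W u v (r u) (Z p v) else 1) *
        (∏ p, ∏ u, ∏ v, if u ∈ pt τ K (t p) ∧ v ∈ K then ed H s W u v (Z p u) (r v) else 1) *
        ∏ p, DD t H s τ K W Z p p := by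
    simp only [bw_eq, Finset.prod_mul_distrib]
  rw [hd, hb, mul_assoc (_ * _), ← prod_DD G t hG (DD t H s τ K W Z)]
  rw [Fintype.prod_sum_type]
  simp only [Fintype.prod_sum_type, Fintype.prod_prod_type, Finset.prod_mul_distrib]
  have e1 : (∏ u : V, ∏ v : V, eI G t H s τ K W r Z (Sum.inl u) (Sum.inl v)) =
      aw H s W K r := rfl
  have e2 : (∏ u : V, ∏ p : VG, ∏ v : V, eI G t H s τ K W r Z (Sum.inl u) (Sum.inr (p, v))) =
      ∏ p, ∏ u, ∏ v, if u ∈ K ∧ v ∈ pt τ K (t p) then ed H s W u v (r u) (Z p v) else 1 := by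
    rw [Finset.prod_comm]
    rfl
  have e3 : (∏ p : VG, ∏ u : V, ∏ v : V, eI G t H s τ K W r Z (Sum.inr (p, u)) (Sum.inl v)) =
      ∏ p, ∏ u, ∏ v, if u ∈ pt τ K (t p) ∧ v ∈ K then ed H s W u v (Z p u) (r v) else 1 := rfl
  have e4 : (∏ p : VG, ∏ u : V, ∏ q : VG, ∏ v : V,
      eI G t H s τ K W r Z (Sum.inr (p, u)) (Sum.inr (q, v))) =
      ∏ p, ∏ q, if p = q ∨ G.Adj p q then DD t H s τ K W Z p q else 1 := by
    refine Finset.prod_congr rfl fun p _ => ?_
    rw [Finset.prod_comm]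
    refine Finset.prod_congr rfl fun q _ => ?_
    by_cases h : p = q ∨ G.Adj p q
    · rw [if_pos h, DD]
      refine Finset.prod_congr rfl fun u _ => Finset.prod_congr rfl fun v _ => ?_
      rw [eI, if_pos h]
    · rw [if_neg h]
      refine Finset.prod_eq_one fun u _ => Finset.prod_eq_one fun v _ => ?_
      rw [eI, if_neg h]
  rw [e1, e2, e3, e4]
  ring

end fix

/-- The configurations. -/
def cfg : (V → U) × (VG → V → U) ≃ (V ⊕ (VG × V) → U) where
  toFun x := om x.1 x.2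
  invFun ω := (fun v => ω (Sum.inl v), fun p v => ω (Sum.inr (p, v)))
  left_inv _ := rfl
  right_inv ω := by
    funext i
    rcases i with v | ⟨p, v⟩ <;> rfl

/-- **[FACT2]**. -/
theorem fact2 (hM : MargStmt) : SubStmt := by
  intro VG V U _ _ _ _ _ m W G t H s K τ hm hG
  classical
  have h := hM (V ⊕ (VG × V)) (RV t τ K) U (jj t τ K)
    (Sum.elim (fun v => m (s v)) (fun q => m (s q.2)))
    (fun z => ∏ e ∈ sideEdges (relSub G t H τ K) (subSide s t τ K), W (z e.1) (z e.2))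
    (jj_inj t τ K) (by
      rintro (v | q)
      · exact hm _
      · exact hm _)
  have hL : ∑ z : RV t τ K → U, (∏ v, (Sum.elim (fun v => m (s v)) (fun q => m (s q.2)) :
      V ⊕ (VG × V) → U → ℝ) (jj t τ K v) (z v)) *
      ∏ e ∈ sideEdges (relSub G t H τ K) (subSide s t τ K), W (z e.1) (z e.2) =
      ∑ z : RV t τ K → U, (∏ a, m (subSide s t τ K a) (z a)) *
      ∏ e ∈ sideEdges (relSub G t H τ K) (subSide s t τ K), W (z e.1) (z e.2) := by
    refine Finset.sum_congr rfl fun z _ => ?_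
    congr 1
    refine Finset.prod_congr rfl fun a _ => ?_
    rcases a with u | p <;> rfl
  rw [← hL, ← h, ← (cfg (VG := VG) (V := V) (U := U)).sum_comp, Fintype.sum_prod_type]
  refine Finset.sum_congr rfl fun r _ => ?_
  rw [Finset.mul_sum]
  refine Finset.sum_congr rfl fun Z _ => ?_
  have h1 : (∏ i, (Sum.elim (fun v => m (s v)) (fun q => m (s q.2)) :
      V ⊕ (VG × V) → U → ℝ) i (cfg (r, Z) i)) = pm s m r * ∏ p, pm s m (Z p) := by
    rw [Fintype.prod_sum_type, Fintype.prod_prod_type]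
    rfl
  have h2 : (∏ e ∈ sideEdges (relSub G t H τ K) (subSide s t τ K),
      W (cfg (r, Z) (jj t τ K e.1)) (cfg (r, Z) (jj t τ K e.2))) =
      aw H s W K r * ((∏ p, bw H s W K (pt τ K (t p)) r (Z p)) *
        ∏ e ∈ sideEdges G t, dw H s W (pt τ K false) (pt τ K true) (Z e.1) (Z e.2)) := by
    rw [← prod_eI G t H s τ K W r Z hG, ← prod_sub G t H s τ K W r Z]
    rfl
  rw [h1, h2, Finset.prod_mul_distrib]
  ring

end Vale.Agent.P050.H118
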